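import Vale.Agent.P054.MathlibUsed
import Vale.Agent.P054.H25.Defs
attribute [-instance] ProperSMul.toContinuousSMul IsTopologicalTorsor.toContinuousSMul IdemSemiring.toCanonicallyOrderedAdd IdemSemiring.toMulLeftMono IdemSemiring.toMulRightMono AddQuantale.instAddLeftMono AddQuantale.instAddRightMono Quantale.instMulLeftMono Quantale.instMulRightMono FiniteDimensional.rclike_to_real IsScalarTower.complexToReal FiniteDimensional.complexToReal

set_option linter.all false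
set_option autoImplicit false

open Finset

/-! P054, few points on `k`-flats: the numerical step. -/

namespace Vale.Agent.P054F

theorem num_aux1 (X Y Z W N q Q : ℝ) (hq : q ≠ 0) (hQ : Q ≠ 0) (h : X*Y*q - Z*W*Q = N) :
    X*(Y/Q) - Z*(W/q) = N/(q*Q) := by
  rw [← h]; field_simp

theorem num_aux2 (X Y Z W P N g N2 q Q : ℝ) (hq : q ≠ 0) (hQ : Q ≠ 0)
    (h : X*Y*q - P*q*Q - Z*W*Q + N*g = N2) :
    X*(Y/Q) - P - Z*(W/q) + N/(q*Q)*g = N2/(q*Q) := by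
  rw [← h]; field_simp

theorem num_id1 (k b w : ℝ) (hk : 1 ≤ k) (hb : 0 ≤ b) (hw : 0 ≤ w) :
    ((k+1+b+w)+w) * (((k+1+b+w)-1)/(2*(k+1+b+w)-k-1)) - ((k+1+b+w)-1)*(((k+1+b)-1)/(2*(k+1+b)-k-1))
      = (k+b+w)*((k+1+2*b)+2*w*(b+1))/((k+1+2*b)*(k+1+2*b+2*w)) := by
  have h1 : (2*(k+1+b+w)-k-1) = (k+1+2*b+2*w) := by ring
  have h2 : (2*(k+1+b)-k-1) = (k+1+2*b) := by ring
  have h3 : (k+1+2*b) ≠ 0 := by
    have : 0 < (k+1+2*b) := by linarith only [hk, hb, hw]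
    exact this.ne'
  have h4 : (k+1+2*b+2*w) ≠ 0 := by
    have : 0 < (k+1+2*b+2*w) := by linarith only [hk, hb, hw]
    exact this.ne'
  rw [h1, h2]
  apply num_aux1 _ _ _ _ _ _ _ h3 h4
  ring

theorem num_id2 (k b w : ℝ) (hk : 1 ≤ k) (hb : 0 ≤ b) (hw : 0 ≤ w) :
    ((k+1+b+w)+w) * ((k+1+b+w)*((k+1+b+w)-k)/(2*(k+1+b+w)-k-1)) - (w*(k+1+b+w)+1)
      - ((k+1+b+w)-1)*((k+1+b)*((k+1+b)-k)/(2*(k+1+b)-k-1))
      + ((k+b+w)*((k+1+2*b)+2*w*(b+1))/((k+1+2*b)*(k+1+2*b+2*w)))*((k-1)/2)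
      = (k+b+w)*(2*b^2+(k+1)*b+(k-1)*((k+1+b+w)-(k+1)/2))/((k+1+2*b)*(k+1+2*b+2*w)) := by
  have h1 : (2*(k+1+b+w)-k-1) = (k+1+2*b+2*w) := by ring
  have h2 : (2*(k+1+b)-k-1) = (k+1+2*b) := by ring
  have h3 : (k+1+2*b) ≠ 0 := by
    have : 0 < (k+1+2*b) := by linarith only [hk, hb, hw]
    exact this.ne'
  have h4 : (k+1+2*b+2*w) ≠ 0 := by
    have : 0 < (k+1+2*b+2*w) := by linarith only [hk, hb, hw]
    exact this.ne'
  rw [h1, h2]
  apply num_aux2 _ _ _ _ _ _ _ _ _ _ h3 h4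
  ring

theorem num_be_nonneg (d k w : ℕ) (hk : 1 ≤ k) (hw : w < d - k) :
    0 ≤ ((d:ℝ)+w) * be d k - ((d:ℝ)-1) * be (d-w) k := by
  obtain ⟨b, rfl⟩ : ∃ b, d = k + 1 + b + w := ⟨d - (k + 1 + w), by omega⟩
  have e1 : k + 1 + b + w - w = k + 1 + b := by omega
  rw [e1]
  unfold be
  push_cast
  have hkR : (1:ℝ) ≤ k := by exact_mod_cast hk
  rw [num_id1 (k:ℝ) (b:ℝ) (w:ℝ) hkR (by positivity) (by positivity)]
  positivity

theorem num_al_nonneg (d k w : ℕ) (hk : 1 ≤ k) (hw : w < d - k) :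
    0 ≤ ((d:ℝ)+w) * al d k - ((w:ℝ)*d+1) - ((d:ℝ)-1) * al (d-w) k +
      (((d:ℝ)+w) * be d k - ((d:ℝ)-1) * be (d-w) k) * (((k:ℝ)-1)/2) := by
  obtain ⟨b, rfl⟩ : ∃ b, d = k + 1 + b + w := ⟨d - (k + 1 + w), by omega⟩
  have e1 : k + 1 + b + w - w = k + 1 + b := by omega
  rw [e1]
  unfold be al
  push_cast
  have hkR : (1:ℝ) ≤ k := by exact_mod_cast hk
  rw [num_id1 (k:ℝ) (b:ℝ) (w:ℝ) hkR (by positivity) (by positivity),
    num_id2 (k:ℝ) (b:ℝ) (w:ℝ) hkR (by positivity) (by positivity)]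
  have h1 : 0 ≤ ((k:ℝ)-1)*(((k:ℝ)+1+b+w)-((k:ℝ)+1)/2) := by
    apply mul_nonneg (by linarith only [hkR])
    have : (0:ℝ) ≤ b := by positivity
    have : (0:ℝ) ≤ w := by positivity
    linarith
  have h2 : 0 ≤ 2*(b:ℝ)^2+((k:ℝ)+1)*b+((k:ℝ)-1)*(((k:ℝ)+1+b+w)-((k:ℝ)+1)/2) := by positivity
  apply div_nonneg (mul_nonneg (by positivity) h2) (by positivity)

theorem num_rterm (d k c lK q0 b0 l2 lC a0 δ e al' be' τ lam ν M σ ξ : ℝ)
    (hd : 1 < d) (hk : k < d)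
    (hal : al' * (2*d-k-1) = d*(d-k)) (hbe : be' * (2*d-k-1) = d-1)
    (hsig : ν - b0 - τ - lam - (d-1)*l2 ≤ (d-1)*σ)
    (hxi : ξ ≤ q0 + τ + lam - σ)
    (hlam : lam = a0 + δ*τ)
    (hnu : lC + (al'+e)*τ + be'*M < ν)
    (hτ : 0 ≤ τ)
    (hC : (d-1)*(lK + (d-k)*q0) + (d-k)*(b0 + (d-1)*l2) + ((d-1)*(c+(d-k)) + (d-k))*a0
      ≤ (2*d-k-1)*lC)
    (hδ : ((d-1)*(c+(d-k)) + (d-k))*δ ≤ (2*d-k-1)*e) :
    lK + c*lam + (d-k)*ξ + M < ν := by
  by_contra h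
  push Not at h
  have h1 := mul_le_mul_of_nonneg_left h (by linarith only [hd] : 0 ≤ d - 1)
  have h2 := mul_le_mul_of_nonneg_left hxi
    (mul_nonneg (by linarith only [hd] : 0 ≤ d - 1) (by linarith only [hk] : 0 ≤ d - k))
  have h3 := mul_le_mul_of_nonneg_left hsig (by linarith only [hk] : 0 ≤ d - k)
  have h4 := mul_lt_mul_of_pos_left hnu (by linarith only [hd, hk] : 0 < 2*d-k-1)
  have h5 : al' * (2*d-k-1) * τ = d*(d-k) * τ := by rw [hal]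
  have h6 : be' * (2*d-k-1) * M = (d-1) * M := by rw [hbe]
  have h7 := mul_le_mul_of_nonneg_right hδ hτ
  subst hlam
  nlinarith only [h1, h2, h3, h4, h5, h6, h7, hC]

theorem num_wterm (d w c lW q0 b0 l2 lC a0 δ e e2 al' be' ala bea τ lam ν M σ ξ kk : ℝ)
    (hd : 1 < d) (hw : 0 ≤ w)
    (hsig : ν - b0 - τ - lam - (d-1)*l2 ≤ (d-1)*σ)
    (hxi : ξ ≤ q0 + τ + lam - σ)
    (hlam : lam = a0 + δ*τ)
    (hnu : lC + (al'+e)*τ + be'*M < ν)
    (hτ : 0 ≤ τ) (hM : (kk-1)/2*τ ≤ M)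
    (h1 : 0 ≤ (d+w)*be' - (d-1)*bea)
    (h2 : 0 ≤ (d+w)*al' - (w*d+1) - (d-1)*ala + ((d+w)*be' - (d-1)*bea)*((kk-1)/2))
    (hC : (d-1)*(lW + w*q0) + (w+1)*(b0 + (d-1)*l2) + ((d-1)*(c+w) + (w+1))*a0 ≤ (d+w)*lC)
    (hδ : ((d-1)*(c+w) + (w+1))*δ + (d-1)*e2 ≤ (d+w)*e) :
    lW + c*lam + w*ξ - σ + (ala + e2)*τ + bea*M < ν := by
  by_contra h
  push Not at h
  have g1 := mul_le_mul_of_nonneg_left h (by linarith only [hd] : 0 ≤ d - 1)
  have g2 := mul_le_mul_of_nonneg_left hxi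
    (mul_nonneg (by linarith only [hd] : 0 ≤ d - 1) hw)
  have g3 := mul_le_mul_of_nonneg_left hsig (by linarith only [hw] : 0 ≤ w + 1)
  have g4 := mul_lt_mul_of_pos_left hnu (by linarith only [hd, hw] : 0 < d+w)
  have g5 := mul_nonneg h1 (by linarith only [hM] : 0 ≤ M - (kk-1)/2*τ)
  have g6 := mul_nonneg h2 hτ
  have g7 := mul_le_mul_of_nonneg_right hδ hτ
  subst hlam
  nlinarith only [g1, g2, g3, g4, g5, g6, g7, hC]

theorem num_al_ge (d k : ℕ) (hk : 1 ≤ k) (hkd : k < d) : 1 ≤ al d k := by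
  have hkR : (1:ℝ) ≤ k := by exact_mod_cast hk
  have hkdR : (k:ℝ) + 1 ≤ d := by exact_mod_cast hkd
  unfold al
  rw [le_div_iff₀ (by linarith only [hkR, hkdR])]
  nlinarith only [hkR, hkdR]

theorem num_be_ge (d k : ℕ) (hk : 1 ≤ k) (hkd : k < d) : 0 ≤ be d k := by
  have hkR : (1:ℝ) ≤ k := by exact_mod_cast hk
  have hkdR : (k:ℝ) + 1 ≤ d := by exact_mod_cast hkd
  unfold be
  apply div_nonneg <;> linarith only [hkR, hkdR]

theorem num_al_mul (d k : ℕ) (hk : 1 ≤ k) (hkd : k < d) :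
    al d k * (2*(d:ℝ)-k-1) = d*((d:ℝ)-k) := by
  have hkR : (1:ℝ) ≤ k := by exact_mod_cast hk
  have hkdR : (k:ℝ) + 1 ≤ d := by exact_mod_cast hkd
  unfold al
  have : (2*(d:ℝ)-k-1) ≠ 0 := by
    have : 0 < (2*(d:ℝ)-k-1) := by linarith only [hkR, hkdR]
    exact this.ne'
  rw [div_mul_cancel₀ _ this]

theorem num_be_mul (d k : ℕ) (hk : 1 ≤ k) (hkd : k < d) :
    be d k * (2*(d:ℝ)-k-1) = (d:ℝ)-1 := by
  have hkR : (1:ℝ) ≤ k := by exact_mod_cast hk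
  have hkdR : (k:ℝ) + 1 ≤ d := by exact_mod_cast hkd
  unfold be
  have : (2*(d:ℝ)-k-1) ≠ 0 := by
    have : 0 < (2*(d:ℝ)-k-1) := by linarith only [hkR, hkdR]
    exact this.ne'
  rw [div_mul_cancel₀ _ this]

/-- the `r`-term in exponential form -/
theorem num_rterm' (d k c : ℕ) (hk : 1 ≤ k) (hkd : k < d)
    (K T L mu n x s b0 lC a0 δ e : ℝ) (hK : 1 ≤ K) (hT : 1 ≤ T) (hL : 0 < L) (hmu : 1 ≤ mu)
    (hn : 0 < n) (hx : 0 < x) (hs : 0 < s)
    (hsig : Real.log n - b0 - Real.log T - Real.log L - ((d:ℝ)-1)*Real.log 2 ≤ ((d:ℝ)-1)*Real.log s)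
    (hxi : Real.log x ≤ Real.log 105 + Real.log T + Real.log L - Real.log s)
    (hlam : Real.log L = a0 + δ*Real.log T)
    (hnu : lC + (al d k+e)*Real.log T + be d k*Real.log mu < Real.log n)
    (hC : ((d:ℝ)-1)*(Real.log (2*K) + ((d:ℝ)-k)*Real.log 105) + ((d:ℝ)-k)*(b0 + ((d:ℝ)-1)*Real.log 2)
      + (((d:ℝ)-1)*(c+((d:ℝ)-k)) + ((d:ℝ)-k))*a0 ≤ (2*(d:ℝ)-k-1)*lC)
    (hδ : (((d:ℝ)-1)*(c+((d:ℝ)-k)) + ((d:ℝ)-k))*δ ≤ (2*(d:ℝ)-k-1)*e) :
    2*K*L^c*x^(d-k)*mu < n := by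
  have hkR : (1:ℝ) ≤ k := by exact_mod_cast hk
  have hkdR : (k:ℝ) + 1 ≤ d := by exact_mod_cast hkd
  have hT0 : 0 < T := by linarith only [hT]
  have hK0 : 0 < K := by linarith only [hK]
  have hmu0 : 0 < mu := by linarith only [hmu]
  have key := num_rterm d k c (Real.log (2*K)) (Real.log 105) b0 (Real.log 2) lC a0 δ e (al d k)
    (be d k) (Real.log T) (Real.log L) (Real.log n) (Real.log mu) (Real.log s) (Real.log x)
    (by linarith only [hkR, hkdR]) (by linarith only [hkdR])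
    (num_al_mul d k hk hkd) (num_be_mul d k hk hkd) hsig hxi hlam hnu (Real.log_nonneg hT) hC hδ
  rw [← Real.log_lt_log_iff (by positivity) hn]
  rw [Real.log_mul (by positivity) (by positivity), Real.log_mul (by positivity) (by positivity),
    Real.log_mul (by positivity) (by positivity), Real.log_pow, Real.log_pow,
    Nat.cast_sub hkd.le]
  exact key

/-- the `w`-terms in exponential form -/
theorem num_wterm' (d k c w : ℕ) (hk : 1 ≤ k) (hkd : k < d) (hw : w < d - k)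
    (K C2 T L mu n x s b0 lC a0 δ e e2 : ℝ) (hK : 1 ≤ K) (hC2 : 1 ≤ C2) (hT : 1 ≤ T) (hL : 0 < L)
    (hmu : 1 ≤ mu) (hmuT : T^(((k:ℝ)-1)/2) ≤ mu)
    (hn : 0 < n) (hx : 0 < x) (hs : 0 < s)
    (hsig : Real.log n - b0 - Real.log T - Real.log L - ((d:ℝ)-1)*Real.log 2 ≤ ((d:ℝ)-1)*Real.log s)
    (hxi : Real.log x ≤ Real.log 105 + Real.log T + Real.log L - Real.log s)
    (hlam : Real.log L = a0 + δ*Real.log T)
    (hnu : lC + (al d k+e)*Real.log T + be d k*Real.log mu < Real.log n)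
    (hC : ((d:ℝ)-1)*(Real.log (4*d*K*C2) + w*Real.log 105) + ((w:ℝ)+1)*(b0 + ((d:ℝ)-1)*Real.log 2)
      + (((d:ℝ)-1)*(c+w) + ((w:ℝ)+1))*a0 ≤ ((d:ℝ)+w)*lC)
    (hδ : (((d:ℝ)-1)*(c+w) + ((w:ℝ)+1))*δ + ((d:ℝ)-1)*e2 ≤ ((d:ℝ)+w)*e) :
    4*d*K*C2*L^c*x^w/s*T^(al (d-w) k + e2)*mu^(be (d-w) k) < n := by
  have hkR : (1:ℝ) ≤ k := by exact_mod_cast hk
  have hkdR : (k:ℝ) + 1 ≤ d := by exact_mod_cast hkd
  have hd0 : (0:ℝ) < d := by linarith only [hkR, hkdR]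
  have hT0 : 0 < T := by linarith only [hT]
  have hK0 : 0 < K := by linarith only [hK]
  have hC20 : 0 < C2 := by linarith only [hC2]
  have hmu0 : 0 < mu := by linarith only [hmu]
  have hM : ((k:ℝ)-1)/2*Real.log T ≤ Real.log mu := by
    rw [← Real.log_rpow hT0]
    exact Real.log_le_log (by positivity) hmuT
  have key := num_wterm d w c (Real.log (4*d*K*C2)) (Real.log 105) b0 (Real.log 2) lC a0 δ e e2
    (al d k) (be d k) (al (d-w) k) (be (d-w) k) (Real.log T) (Real.log L) (Real.log n)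
    (Real.log mu) (Real.log s) (Real.log x) k
    (by linarith only [hkR, hkdR]) (by positivity) hsig hxi hlam hnu (Real.log_nonneg hT) hM
    (num_be_nonneg d k w hk hw) (num_al_nonneg d k w hk hw) hC hδ
  rw [← Real.log_lt_log_iff (by positivity) hn]
  rw [Real.log_mul (by positivity) (by positivity), Real.log_mul (by positivity) (by positivity),
    Real.log_div (by positivity) (by positivity),
    Real.log_mul (by positivity) (by positivity), Real.log_mul (by positivity) (by positivity),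
    Real.log_pow, Real.log_pow, Real.log_rpow hT0, Real.log_rpow hmu0]
  exact key

/-- the numerical step -/
theorem num_step (d k : ℕ) (hk : 1 ≤ k) (hkd : k < d) (K : ℝ) (hK : 1 ≤ K) (c : ℕ) (e : ℝ)
    (he : 0 < e) :
    ∃ e1 > (0:ℝ), ∃ e2 > (0:ℝ), ∀ C1 C2 : ℝ, 0 < C1 → 0 < C2 → ∃ C > (0:ℝ),
      ∀ (n t m : ℕ) (mu : ℝ), (m:ℝ) ≤ mu → 1 ≤ mu →
      (d ≤ k+2 ∨ ((t:ℝ)+1)^(((k:ℝ)-1)/2) ≤ mu) →
      (n:ℝ) ≤ C1*((t:ℝ)+1)^((d:ℝ)^2/(2*d-1)+e1) →
      (∀ (x s : ℕ) (L : ℝ), 1 ≤ s → 1 ≤ x → 20*(Real.log ((n:ℝ)*x+3)+1) ≤ L →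
        4*x*(2*s+1)^d ≤ n → 100*((t:ℝ)+1)*L/s+4 ≤ x → K*L^c ≤ s →
        (n:ℝ) ≤ K*L^c*(∑ w ∈ Ico 2 (d-k), ((x:ℝ)^w/s+(x:ℝ)^(w-1))*
          (C2*((t:ℝ)+1)^(al (d-w) k + e2)*mu^(be (d-w) k)) + (x:ℝ)^(d-k)*m)) →
      (n:ℝ) ≤ C*((t:ℝ)+1)^(al d k + e)*mu^(be d k) := by
  have hd2 : 2 ≤ d := by omega
  have hdR : (2:ℝ) ≤ d := by exact_mod_cast hd2
  have hd0 : (0:ℝ) < d := by linarith only [hdR]
  have hkR : (1:ℝ) ≤ k := by exact_mod_cast hk
  have hkdR : (k:ℝ) + 1 ≤ d := by exact_mod_cast hkd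
  have hc0 : (0:ℝ) ≤ c := by positivity
  have hal1 := num_al_ge d k hk hkd
  have hbe1 := num_be_ge d k hk hkd
  obtain ⟨E, hE⟩ : ∃ E : ℝ, E = ((d:ℝ)+1)*(c+d+1) := ⟨_, rfl⟩
  have hE1 : 1 ≤ E := by rw [hE]; nlinarith only [hdR, hc0]
  obtain ⟨δ, hδ⟩ : ∃ δ : ℝ, δ = e/(2*E) := ⟨_, rfl⟩
  have hδ0 : 0 < δ := by rw [hδ]; positivity
  have hEδ : E*δ = e/2 := by
    rw [hδ]; field_simp
  refine ⟨1/8, by norm_num, e/2, by linarith only [he], ?_⟩
  intro C1 C2 hC1 hC2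
  obtain ⟨C1', hC1'⟩ : ∃ C : ℝ, C = max C1 1 := ⟨_, rfl⟩
  obtain ⟨C2', hC2'⟩ : ∃ C : ℝ, C = max C2 1 := ⟨_, rfl⟩
  have hC1a : C1 ≤ C1' := hC1' ▸ le_max_left _ _
  have hC1b : 1 ≤ C1' := hC1' ▸ le_max_right _ _
  have hC2a : C2 ≤ C2' := hC2' ▸ le_max_left _ _
  have hC2b : 1 ≤ C2' := hC2' ▸ le_max_right _ _
  have hlC1 : 0 ≤ Real.log C1' := Real.log_nonneg hC1b
  obtain ⟨A, hA⟩ : ∃ A : ℝ, A = C1' + 20*(Real.log 4 + 2*Real.log C1' + 1) + 20*((d:ℝ)+1)/δ :=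
    ⟨_, rfl⟩
  have hl4 : 0 ≤ Real.log 4 := Real.log_nonneg (by norm_num)
  have hdd : 0 ≤ 20*((d:ℝ)+1)/δ := by positivity
  have hAC : C1' ≤ A := by rw [hA]; linarith only [hl4, hlC1, hdd]
  have hA1 : 1 ≤ A := hC1b.trans hAC
  have hA0 : 0 < A := by linarith only [hA1]
  obtain ⟨B, hB⟩ : ∃ B : ℝ, B = 420*3^d := ⟨_, rfl⟩
  have hB1 : 1 ≤ B := by
    rw [hB]
    have : (1:ℝ) ≤ 3^d := one_le_pow₀ (by norm_num)
    linarith only [this]
  have hB0 : 0 < B := by linarith only [hB1]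
  have ha0 : 0 ≤ Real.log A := Real.log_nonneg hA1
  have hb0 : 0 ≤ Real.log B := Real.log_nonneg hB1
  have hq0 : 0 ≤ Real.log 105 := Real.log_nonneg (by norm_num)
  have hl2 : 0 ≤ Real.log 2 := Real.log_nonneg (by norm_num)
  have hlK : 0 ≤ Real.log (2*K) := Real.log_nonneg (by linarith only [hK])
  have hlW : 0 ≤ Real.log (4*d*K*C2') := by
    apply Real.log_nonneg
    have h1 : 1 ≤ 4*(d:ℝ) := by linarith only [hdR]
    have h2 : 1 ≤ 4*(d:ℝ)*K := one_le_mul_of_one_le_of_one_le h1 hK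
    exact one_le_mul_of_one_le_of_one_le h2 hC2b
  obtain ⟨lC, hlC⟩ : ∃ lC : ℝ, lC = (d:ℝ)*(Real.log (2*K) + Real.log (4*d*K*C2') + d*Real.log 105)
    + ((d:ℝ)+1)*(Real.log B + d*Real.log 2) + E*Real.log A := ⟨_, rfl⟩
  refine ⟨Real.exp lC, Real.exp_pos _, ?_⟩
  intro n t m mu hm hmu hor hn1 hyp
  by_contra hcon
  push Not at hcon
  obtain ⟨T, hT⟩ : ∃ T : ℝ, T = (t:ℝ) + 1 := ⟨_, rfl⟩
  rw [← hT] at hor hn1 hyp hcon
  have hT1 : 1 ≤ T := by
    rw [hT]; have : (0:ℝ) ≤ t := by positivity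
    linarith only [this]
  have hT0 : 0 < T := by linarith only [hT1]
  have hmu0 : 0 < mu := by linarith only [hmu]
  have hn0 : (0:ℝ) < n := lt_of_le_of_lt (by positivity) hcon
  have hτ : 0 ≤ Real.log T := Real.log_nonneg hT1
  have hM : 0 ≤ Real.log mu := Real.log_nonneg hmu
  have hnu : lC + (al d k + e)*Real.log T + be d k*Real.log mu < Real.log n := by
    have h := Real.log_lt_log (by positivity) hcon
    rw [Real.log_mul (by positivity) (by positivity), Real.log_mul (by positivity) (by positivity),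
      Real.log_exp, Real.log_rpow hT0, Real.log_rpow hmu0] at h
    exact h
  have hnub : Real.log n ≤ Real.log C1' + ((d:ℝ)+1)/2*Real.log T := by
    have h := Real.log_le_log hn0 hn1
    rw [Real.log_mul (by positivity) (by positivity), Real.log_rpow hT0] at h
    have h1 : Real.log C1 ≤ Real.log C1' := Real.log_le_log hC1 hC1a
    have h2 : (d:ℝ)^2/(2*d-1)+1/8 ≤ ((d:ℝ)+1)/2 := by
      have h3 : (0:ℝ) < 2*d-1 := by linarith only [hdR]
      have h4 : (d:ℝ)^2/(2*d-1) ≤ ((d:ℝ)+1)/2 - 1/8 := by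
        rw [div_le_iff₀ h3]
        nlinarith only [hdR]
      linarith only [h4]
    have h5 := mul_le_mul_of_nonneg_right h2 hτ
    linarith only [h, h1, h5]
  obtain ⟨L, hL⟩ : ∃ L : ℝ, L = A*T^δ := ⟨_, rfl⟩
  have hTδ : 1 ≤ T^δ := Real.one_le_rpow hT1 hδ0.le
  have hLA : A ≤ L := by rw [hL]; nlinarith only [hTδ, hA0]
  have hL0 : 0 < L := by linarith only [hLA, hA0]
  have hL1 : 1 ≤ L := hA1.trans hLA
  have hlam : Real.log L = Real.log A + δ*Real.log T := by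
    rw [hL, Real.log_mul (by positivity) (by positivity), Real.log_rpow hT0]
  have hlamC : Real.log C1' ≤ Real.log L := Real.log_le_log (by linarith only [hC1b]) (hAC.trans hLA)
  have hlam0 : 0 ≤ Real.log L := Real.log_nonneg hL1
  obtain ⟨y, hy⟩ : ∃ y : ℝ, y = ((n:ℝ)/(B*T*L))^(1/((d:ℝ)-1)) := ⟨_, rfl⟩
  have hd1 : (0:ℝ) < (d:ℝ)-1 := by linarith only [hdR]
  have hy0 : 0 < y := by rw [hy]; positivity
  have hlogy : ((d:ℝ)-1)*Real.log y = Real.log n - Real.log B - Real.log T - Real.log L := by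
    rw [hy, Real.log_rpow (by positivity), Real.log_div (by positivity) (by positivity),
      Real.log_mul (by positivity) (by positivity), Real.log_mul (by positivity) (by positivity)]
    field_simp
    ring
  have hypow : y^(d-1) = (n:ℝ)/(B*T*L) := by
    rw [hy, ← Real.rpow_natCast, ← Real.rpow_mul (by positivity), Nat.cast_sub (by omega),
      Nat.cast_one, one_div, inv_mul_cancel₀ hd1.ne', Real.rpow_one]
  have hEc : ((d:ℝ)-1)*c+1 ≤ E := by rw [hE]; nlinarith only [hdR, hc0]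
  have hKL1 : 1 ≤ K*L^c := one_le_mul_of_one_le_of_one_le hK (one_le_pow₀ hL1)
  have h2KL : 2*(K*L^c) ≤ y := by
    rw [← Real.log_le_log_iff (by positivity) hy0, ← mul_assoc,
      Real.log_mul (by positivity) (by positivity), Real.log_pow]
    refine le_of_mul_le_mul_left ?_ hd1
    rw [hlogy]
    have g1 : (((d:ℝ)-1)*c+1)*Real.log A ≤ E*Real.log A := mul_le_mul_of_nonneg_right hEc ha0
    have g2 : (((d:ℝ)-1)*c+1)*δ ≤ e/2 := by
      rw [← hEδ]; exact mul_le_mul_of_nonneg_right hEc hδ0.le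
    have g3 := mul_le_mul_of_nonneg_right g2 hτ
    have g4 := mul_le_mul_of_nonneg_right hal1 hτ
    have g5 := mul_nonneg hbe1 hM
    have g6 := mul_nonneg he.le hτ
    have g7 : 0 ≤ (d:ℝ)*(Real.log (4*d*K*C2') + d*Real.log 105) := by positivity
    have g8 : 0 ≤ (d:ℝ)*Real.log B := by positivity
    have g9 : 0 ≤ ((d:ℝ)+1)*(d*Real.log 2) := by positivity
    rw [hlC] at hnu
    rw [hlam]
    nlinarith only [hnu, g1, g3, g4, g5, g6, g7, g8, g9, hlK, hb0]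
  have hyge : 2 ≤ y := by linarith only [h2KL, hKL1]
  obtain ⟨s, hs⟩ : ∃ s : ℕ, s = ⌊y⌋₊ := ⟨_, rfl⟩
  have hsle : (s:ℝ) ≤ y := by rw [hs]; exact Nat.floor_le hy0.le
  have hsgt : y < s + 1 := by rw [hs]; exact Nat.lt_floor_add_one y
  have hshalf : y/2 ≤ s := by linarith only [hyge, hsgt]
  have hs1R : (1:ℝ) ≤ s := by linarith only [hyge, hshalf]
  have hs1 : 1 ≤ s := by exact_mod_cast hs1R
  have hs0 : (0:ℝ) < s := by linarith only [hs1R]
  have hKs : K*L^c ≤ s := by linarith only [h2KL, hshalf]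
  have hsig : Real.log n - Real.log B - Real.log T - Real.log L - ((d:ℝ)-1)*Real.log 2 ≤
      ((d:ℝ)-1)*Real.log s := by
    have h1 : Real.log y - Real.log 2 ≤ Real.log s := by
      rw [← Real.log_div hy0.ne' (by norm_num)]
      exact Real.log_le_log (by positivity) hshalf
    have h2 := mul_le_mul_of_nonneg_left h1 hd1.le
    rw [mul_sub, hlogy] at h2
    exact h2
  have hyy : y^2 ≤ T*L := by
    rw [← Real.log_le_log_iff (by positivity) (by positivity), Real.log_pow,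
      Real.log_mul (by positivity) (by positivity)]
    refine le_of_mul_le_mul_left ?_ hd1
    have h1 : ((d:ℝ)-1)*(((2:ℕ):ℝ)*Real.log y) = 2*(Real.log n - Real.log B - Real.log T - Real.log L) := by
      rw [← hlogy]; push_cast; ring
    rw [h1]
    have h2 : 2*Real.log C1' ≤ ((d:ℝ)+1)*Real.log L := by
      have := mul_le_mul_of_nonneg_right (by linarith only [hdR] : (2:ℝ) ≤ (d:ℝ)+1) hlam0
      linarith only [this, hlamC]
    nlinarith only [hnub, h2, hb0]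
  have hss : (s:ℝ)*s ≤ T*L := by
    have := mul_le_mul hsle hsle hs0.le hy0.le
    rw [← sq y] at this
    exact this.trans hyy
  have hsTL : (s:ℝ) ≤ T*L/s := by rw [le_div_iff₀ hs0]; exact hss
  obtain ⟨x, hx⟩ : ∃ x : ℕ, x = ⌈100*T*L/s+4⌉₊ := ⟨_, rfl⟩
  have hx1 : 100*T*L/s+4 ≤ x := by rw [hx]; exact Nat.le_ceil _
  have hx2 : (x:ℝ) < 100*T*L/s+4+1 := by rw [hx]; exact Nat.ceil_lt_add_one (by positivity)
  have hxe : 100*T*L/s = 100*(T*L/s) := by ring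
  have hx3 : (x:ℝ) ≤ 105*(T*L/s) := by
    rw [hxe] at hx2
    linarith only [hx2, hsTL, hs1R]
  have hsx : (s:ℝ) ≤ x := by
    rw [hxe] at hx1
    linarith only [hx1, hsTL, hs1R]
  have hx0 : (0:ℝ) < x := by linarith only [hs0, hsx]
  have hx1N : 1 ≤ x := by
    have : (1:ℝ) ≤ x := hs1R.trans hsx
    exact_mod_cast this
  have hxi : Real.log x ≤ Real.log 105 + Real.log T + Real.log L - Real.log s := by
    have h := Real.log_le_log hx0 hx3
    rw [Real.log_mul (by norm_num) (by positivity), Real.log_div (by positivity) (by positivity),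
      Real.log_mul (by positivity) (by positivity)] at h
    linarith only [h]
  have hc4R : 4*(x:ℝ)*(2*s+1)^d ≤ n := by
    have h1 : (2*(s:ℝ)+1)^d ≤ (3*s)^d := by
      apply pow_le_pow_left₀ (by positivity)
      linarith only [hs1R]
    have h2 : (3*(s:ℝ))^d = 3^d*(s^(d-1)*s) := by
      rw [mul_pow, ← pow_succ]
      congr 2; omega
    have h3 : (s:ℝ)^(d-1) ≤ (n:ℝ)/(B*T*L) := by
      rw [← hypow]; exact pow_le_pow_left₀ hs0.le hsle _
    calc 4*(x:ℝ)*(2*s+1)^d ≤ 4*(105*(T*L/s))*(3^d*(s^(d-1)*s)) := by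
          rw [← h2]
          apply mul_le_mul _ h1 (by positivity) (by positivity)
          linarith only [hx3]
      _ = B*T*L*s^(d-1) := by rw [hB]; field_simp; ring
      _ ≤ B*T*L*((n:ℝ)/(B*T*L)) := mul_le_mul_of_nonneg_left h3 (by positivity)
      _ = n := by field_simp
  have hc4 : 4*x*(2*s+1)^d ≤ n := by exact_mod_cast hc4R
  have hxn : (x:ℝ) ≤ n := by
    have h1 : (1:ℝ) ≤ (2*(s:ℝ)+1)^d := one_le_pow₀ (by linarith only [hs1R])
    have h2 : 4*(x:ℝ)*1 ≤ 4*(x:ℝ)*(2*s+1)^d := mul_le_mul_of_nonneg_left h1 (by positivity)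
    linarith only [h2, hc4R, hx0]
  have hn1R : (1:ℝ) ≤ n := by
    have : (1:ℝ) ≤ x := hs1R.trans hsx
    linarith only [this, hxn]
  have hcL : 20*(Real.log ((n:ℝ)*x+3)+1) ≤ L := by
    have h1 : (n:ℝ)*x+3 ≤ 4*(n:ℝ)^2 := by nlinarith only [hn1R, hxn, hx0]
    have h2 : Real.log ((n:ℝ)*x+3) ≤ Real.log 4 + 2*Real.log n := by
      have h := Real.log_le_log (by positivity) h1
      rw [Real.log_mul (by norm_num) (by positivity), Real.log_pow] at h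
      push_cast at h
      exact h
    have h3 : Real.log T ≤ T^δ/δ := Real.log_le_rpow_div hT0.le hδ0
    have h4 : 20*((d:ℝ)+1)*Real.log T ≤ 20*((d:ℝ)+1)/δ*T^δ := by
      calc 20*((d:ℝ)+1)*Real.log T ≤ 20*((d:ℝ)+1)*(T^δ/δ) :=
            mul_le_mul_of_nonneg_left h3 (by positivity)
        _ = _ := by ring
    have h5 : 20*(Real.log 4 + 2*Real.log C1' + 1) ≤ 20*(Real.log 4 + 2*Real.log C1' + 1)*T^δ :=
      le_mul_of_one_le_right (by positivity) hTδ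
    have h6 : 0 ≤ C1'*T^δ := by positivity
    rw [hL, hA]
    nlinarith only [h2, h4, h5, h6, hnub]
  have hxL : 100*T*L/(s:ℝ)+4 ≤ x := hx1
  have key := hyp x s L hs1 hx1N hcL hc4 hxL hKs
  -- bounds for the constants
  have hr := num_rterm' d k c hk hkd K T L mu n x s (Real.log B) lC (Real.log A) δ e hK hT1 hL0 hmu
    hn0 hx0 hs0 hsig hxi hlam hnu ?_ ?_
  have hwt : ∀ w ∈ Ico 2 (d-k), K*L^c*(((x:ℝ)^w/s+(x:ℝ)^(w-1))*
      (C2*T^(al (d-w) k + e/2)*mu^(be (d-w) k))) ≤ n/(2*d) := by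
    intro w hw
    rw [mem_Ico] at hw
    have hmuT : T^(((k:ℝ)-1)/2) ≤ mu := by
      rcases hor with h | h
      · omega
      · exact h
    have hwR : (w:ℝ) ≤ d := by
      have : w ≤ d := by omega
      exact_mod_cast this
    have hw0 : (0:ℝ) ≤ w := by positivity
    have hWE : ((d:ℝ)-1)*(c+w) + ((w:ℝ)+1) ≤ E := by rw [hE]; nlinarith only [hdR, hc0, hwR, hw0]
    have hlC0 : 0 ≤ lC := by rw [hlC]; positivity
    have h := num_wterm' d k c w hk hkd hw.2 K C2' T L mu n x s (Real.log B) lC (Real.log A) δ e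
      (e/2) hK hC2b hT1 hL0 hmu hmuT hn0 hx0 hs0 hsig hxi hlam hnu ?_ ?_
    · have h1 : (x:ℝ)^(w-1) ≤ (x:ℝ)^w/s := by
        rw [le_div_iff₀ hs0]
        calc (x:ℝ)^(w-1)*s ≤ (x:ℝ)^(w-1)*x := mul_le_mul_of_nonneg_left hsx (by positivity)
          _ = (x:ℝ)^w := by rw [← pow_succ]; congr 1; omega
      rw [le_div_iff₀ (by positivity)]
      refine le_trans ?_ h.le
      calc K*L^c*(((x:ℝ)^w/s+(x:ℝ)^(w-1))*(C2*T^(al (d-w) k + e/2)*mu^(be (d-w) k)))*(2*d)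
          ≤ K*L^c*(((x:ℝ)^w/s+(x:ℝ)^w/s)*(C2'*T^(al (d-w) k + e/2)*mu^(be (d-w) k)))*(2*d) := by
            gcongr
        _ = _ := by ring
    · have g1 : (((d:ℝ)-1)*(c+w) + ((w:ℝ)+1))*Real.log A ≤ E*Real.log A :=
        mul_le_mul_of_nonneg_right hWE ha0
      have g2 : ((d:ℝ)-1)*(Real.log (4*d*K*C2') + w*Real.log 105) ≤
          (d:ℝ)*(Real.log (2*K) + Real.log (4*d*K*C2') + d*Real.log 105) := by
        apply mul_le_mul (by linarith only []) _ (by positivity) (by positivity)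
        have := mul_le_mul_of_nonneg_right hwR hq0
        linarith only [this, hlK]
      have g3 : ((w:ℝ)+1)*(Real.log B + ((d:ℝ)-1)*Real.log 2) ≤
          ((d:ℝ)+1)*(Real.log B + d*Real.log 2) := by
        apply mul_le_mul (by linarith only [hwR]) _ (by positivity) (by positivity)
        linarith only [hl2]
      have g4 : lC ≤ ((d:ℝ)+w)*lC := le_mul_of_one_le_left hlC0 (by linarith only [hdR, hw0])
      refine le_trans ?_ g4
      rw [hlC]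
      linarith only [g1, g2, g3]
    · have g1 : (((d:ℝ)-1)*(c+w) + ((w:ℝ)+1))*δ ≤ e/2 := by
        rw [← hEδ]; exact mul_le_mul_of_nonneg_right hWE hδ0.le
      nlinarith only [g1, he, hdR, hw0]
  · -- conclusion
    have hsum : ∑ w ∈ Ico 2 (d-k), K*L^c*(((x:ℝ)^w/s+(x:ℝ)^(w-1))*
        (C2*T^(al (d-w) k + e/2)*mu^(be (d-w) k))) ≤ n/2 := by
      refine (Finset.sum_le_card_nsmul _ _ _ hwt).trans ?_
      rw [Nat.card_Ico, nsmul_eq_mul]
      have h1 : ((d-k-2:ℕ):ℝ) ≤ d := by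
        have : d-k-2 ≤ d := by omega
        exact_mod_cast this
      calc ((d-k-2:ℕ):ℝ)*((n:ℝ)/(2*d)) ≤ d*((n:ℝ)/(2*d)) :=
            mul_le_mul_of_nonneg_right h1 (by positivity)
        _ = n/2 := by field_simp
    have h2 : K*L^c*((x:ℝ)^(d-k)*m) < n/2 := by
      have h3 : K*L^c*((x:ℝ)^(d-k)*m) ≤ K*L^c*((x:ℝ)^(d-k)*mu) := by gcongr
      linarith only [h3, hr]
    rw [mul_add, mul_sum] at key
    linarith only [key, hsum, h2]
  · have hlC0 : 0 ≤ lC := by rw [hlC]; positivity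
    have hrE : ((d:ℝ)-1)*(c+((d:ℝ)-k)) + ((d:ℝ)-k) ≤ E := by
      rw [hE]; nlinarith only [hdR, hc0, hkR, hkdR]
    have hr0 : (0:ℝ) ≤ (d:ℝ)-k := by linarith only [hkdR]
    have g1 : (((d:ℝ)-1)*(c+((d:ℝ)-k)) + ((d:ℝ)-k))*Real.log A ≤ E*Real.log A :=
      mul_le_mul_of_nonneg_right hrE ha0
    have g2 : ((d:ℝ)-1)*(Real.log (2*K) + ((d:ℝ)-k)*Real.log 105) ≤
        (d:ℝ)*(Real.log (2*K) + Real.log (4*d*K*C2') + d*Real.log 105) := by
      apply mul_le_mul (by linarith only []) _ (by positivity) (by positivity)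
      have := mul_le_mul_of_nonneg_right (by linarith only [hkR] : (d:ℝ)-k ≤ d) hq0
      linarith only [this, hlW]
    have g3 : ((d:ℝ)-k)*(Real.log B + ((d:ℝ)-1)*Real.log 2) ≤
        ((d:ℝ)+1)*(Real.log B + d*Real.log 2) := by
      apply mul_le_mul (by linarith only [hkR]) _ (by positivity) (by positivity)
      linarith only [hl2]
    have g4 : lC ≤ (2*(d:ℝ)-k-1)*lC :=
      le_mul_of_one_le_left hlC0 (by linarith only [hdR, hkR, hkdR])
    refine le_trans ?_ g4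
    rw [hlC]
    linarith only [g1, g2, g3]
  · have hrE : ((d:ℝ)-1)*(c+((d:ℝ)-k)) + ((d:ℝ)-k) ≤ E := by
      rw [hE]; nlinarith only [hdR, hc0, hkR, hkdR]
    have g1 : (((d:ℝ)-1)*(c+((d:ℝ)-k)) + ((d:ℝ)-k))*δ ≤ e/2 := by
      rw [← hEδ]; exact mul_le_mul_of_nonneg_right hrE hδ0.le
    nlinarith only [g1, he, hdR, hkR, hkdR]

end Vale.Agent.P054F
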