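import Vale.Agent.P054.MathlibUsed
import Vale.Agent.P054.H25.Main
import Vale.Agent.P054.H420.Num
attribute [-instance] ProperSMul.toContinuousSMul IsTopologicalTorsor.toContinuousSMul IdemSemiring.toCanonicallyOrderedAdd IdemSemiring.toMulLeftMono IdemSemiring.toMulRightMono AddQuantale.instAddLeftMono AddQuantale.instAddRightMono Quantale.instMulLeftMono Quantale.instMulRightMono FiniteDimensional.rclike_to_real IsScalarTower.complexToReal FiniteDimensional.complexToReal

set_option linter.all false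
set_option autoImplicit false

/-! P054, few points on `k`-flats: the main bound, unconditional. -/

namespace Vale.Agent.P054F

theorem numStep (d k : ℕ) (hk : 1 ≤ k) (hkd : k < d) : NumStep d k :=
  fun K hK c e he => num_step d k hk hkd K hK c e he

theorem main_flats (k : ℕ) (hk : 1 ≤ k) (d : ℕ) (hkd : k < d) (e : ℝ) (he : 0 < e) :
    ∃ C : ℝ, 0 < C ∧ ∀ (t m : ℕ) (mu : ℝ), (m:ℝ) ≤ mu → 1 ≤ mu →
      (d ≤ k + 2 ∨ ((t:ℝ) + 1) ^ (((k:ℝ) - 1) / 2) ≤ mu) →
      PF d k t m (C * ((t:ℝ) + 1) ^ (al d k + e) * mu ^ (be d k)) :=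
  main_flats_of k hk (fun d hkd => numStep d k hk hkd) d hkd e he

end Vale.Agent.P054F
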